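import Vale.Agent.P181.RH.Defs

set_option autoImplicit false

/-!
# P181, RH, [PAR]: the parameters (pure arithmetic)
-/

namespace Vale.Agent.P181.RH.H283

open Finset

lemma ff_le (m f₀ f₂ : ℕ) (h : f₂ ≤ f₀) : ∑ r : Fin m, ff m f₀ f₂ r ≤ m * f₀ := by
  calc ∑ r : Fin m, ff m f₀ f₂ r ≤ ∑ _r : Fin m, f₀ := by
        refine Finset.sum_le_sum fun r _ => ?_
        unfold ff
        split_ifs
        · exact Nat.sub_le _ _
        · exact (Nat.sub_le _ _).trans h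
    _ = m * f₀ := by rw [Finset.sum_const, Finset.card_univ, Fintype.card_fin, smul_eq_mul]

/-- The natural number part. -/
lemma par_nat (a b X : ℕ) (hX : 100 ≤ X) (hXa : X ^ 100 ≤ a) (hab : a ≤ b) (hbX : b ≤ X * a) :
    ∃ D1 f₀ F₀ : ℕ, D1 * X ^ 8 ≤ b ∧ b < (D1 + 1) * X ^ 8 ∧
      F₀ = b * (D1 + X ^ 8 + (D1 + 1) + 2 * (X ^ 8 + 2)) ∧ 4 * F₀ + 2 * a ≤ f₀ * a ∧
      X ^ 6 * f₀ ≤ 9 * a ∧ X ^ 13 ≤ f₀ := by
  have hXp : 0 < X := by omega
  have pw : ∀ i j : ℕ, i ≤ j → X ^ i ≤ X ^ j := fun i j h => Nat.pow_le_pow_right hXp h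
  have hap : 0 < a := lt_of_lt_of_le (pow_pos hXp _) hXa
  have h8 : 0 < X ^ 8 := pow_pos hXp _
  obtain ⟨D, hD⟩ : ∃ D, D = b / X ^ 8 := ⟨_, rfl⟩
  have hD1 : D * X ^ 8 ≤ b := by
    rw [hD]
    exact Nat.div_mul_le_self _ _
  have hD2 : b < (D + 1) * X ^ 8 := by
    have h1 := Nat.div_add_mod b (X ^ 8)
    have h2 := Nat.mod_lt b h8
    rw [← hD] at h1
    calc b = X ^ 8 * D + b % X ^ 8 := h1.symm
      _ < X ^ 8 * D + X ^ 8 := by omega
      _ = (D + 1) * X ^ 8 := by ring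
  obtain ⟨F, hF⟩ : ∃ F, F = b * (D + X ^ 8 + (D + 1) + 2 * (X ^ 8 + 2)) := ⟨_, rfl⟩
  obtain ⟨q, hq⟩ : ∃ q, q = 4 * F / a := ⟨_, rfl⟩
  have hq1 : q * a ≤ 4 * F := by
    rw [hq]
    exact Nat.div_mul_le_self _ _
  have hq2 : 4 * F < (q + 1) * a := by
    have h1 := Nat.div_add_mod (4 * F) a
    have h2 := Nat.mod_lt (4 * F) hap
    rw [← hq] at h1
    calc 4 * F = a * q + 4 * F % a := h1.symm
      _ < a * q + a := by omega
      _ = (q + 1) * a := by ring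
  refine ⟨D, q + 3, F, hD1, hD2, hF, ?_, ?_, ?_⟩
  · have : (q + 3) * a = (q + 1) * a + 2 * a := by ring
    omega
  · have h1 : X ^ 8 * F ≤ (X * a) * (2 * (X * a) + 8 * X ^ 16) := by
      have h2 : X ^ 8 * F = b * (2 * (D * X ^ 8) + (3 * X ^ 16 + 5 * X ^ 8)) := by
        rw [hF]
        ring
      rw [h2]
      refine Nat.mul_le_mul hbX ?_
      have h3 := pw 8 16 (by norm_num)
      have h4 := hD1.trans hbX
      omega
    have h2 : (X ^ 6 * (q + 3)) * (X ^ 2 * a) ≤ (9 * a) * (X ^ 2 * a) := by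
      calc (X ^ 6 * (q + 3)) * (X ^ 2 * a) = X ^ 8 * (q * a) + 3 * X ^ 8 * a := by ring
        _ ≤ X ^ 8 * (4 * F) + 3 * X ^ 8 * a :=
            Nat.add_le_add_right (Nat.mul_le_mul_left _ hq1) _
        _ = 4 * (X ^ 8 * F) + 3 * X ^ 8 * a := by ring
        _ ≤ 4 * ((X * a) * (2 * (X * a) + 8 * X ^ 16)) + 3 * X ^ 8 * a :=
            Nat.add_le_add_right (Nat.mul_le_mul_left _ h1) _
        _ = 8 * (X ^ 2 * a * a) + 32 * (X ^ 17 * a) + 3 * (X ^ 8 * a) := by ring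
        _ ≤ 8 * (X ^ 2 * a * a) + 35 * (X ^ 17 * a) := by
            have h3 : X ^ 8 * a ≤ X ^ 17 * a := Nat.mul_le_mul_right _ (pw 8 17 (by norm_num))
            omega
        _ ≤ 8 * (X ^ 2 * a * a) + X ^ 2 * a * a := by
            have h3 : 35 * (X ^ 17 * a) ≤ X ^ 2 * a * a := by
              calc 35 * (X ^ 17 * a) ≤ X * (X ^ 17 * a) := Nat.mul_le_mul_right _ (by omega)
                _ = X ^ 2 * a * X ^ 16 := by ring
                _ ≤ X ^ 2 * a * a := Nat.mul_le_mul_left _ ((pw 16 100 (by norm_num)).trans hXa)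
            omega
        _ = (9 * a) * (X ^ 2 * a) := by ring
    exact Nat.le_of_mul_le_mul_right h2 (Nat.mul_pos (pow_pos hXp _) hap)
  · have h1 : X ^ 92 ≤ D := by
      have h2 : X ^ 92 * X ^ 8 < (D + 1) * X ^ 8 := by
        calc X ^ 92 * X ^ 8 = X ^ 100 := by ring
          _ ≤ b := hXa.trans hab
          _ < (D + 1) * X ^ 8 := hD2
      have h3 := Nat.lt_of_mul_lt_mul_right h2
      omega
    have h2 : D * a ≤ (q + 3) * a := by
      calc D * a ≤ D * b := Nat.mul_le_mul_left _ hab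
        _ ≤ F := by
            rw [hF, Nat.mul_comm D b]
            exact Nat.mul_le_mul_left _ (by omega)
        _ ≤ (q + 1) * a := by omega
        _ ≤ (q + 3) * a := Nat.mul_le_mul_right _ (by omega)
    have h3 := Nat.le_of_mul_le_mul_right h2 hap
    exact ((pw 13 92 (by norm_num)).trans h1).trans h3

/-- **[PAR]** -/
theorem par : ParRH := by
  intro δ hδ hδ1
  obtain ⟨X₀, hX₀⟩ := exists_nat_ge (100 / δ)
  refine ⟨max 100 X₀, fun a b X m hX hXa hb hbX hm3 hmX => ?_⟩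
  have hX100 : 100 ≤ X := (le_max_left _ _).trans hX
  have hXδ : 100 ≤ δ * X := by
    have h1 : (X₀ : ℝ) ≤ X := by exact_mod_cast (le_max_right _ _).trans hX
    have h2 : 100 / δ ≤ X := hX₀.trans h1
    rw [div_le_iff₀ hδ] at h2
    linarith
  have hab : a ≤ b := by
    have h1 : (a : ℝ) ≤ b := by
      have h2 : (0 : ℝ) ≤ a := Nat.cast_nonneg _
      nlinarith
    exact_mod_cast h1
  obtain ⟨D, f, F, hD1, hD2, hF, hf1, hf2, hf3⟩ := par_nat a b X hX100 hXa hab hbX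
  have hXp : 0 < X := by omega
  have pw : ∀ i j : ℕ, i ≤ j → X ^ i ≤ X ^ j := fun i j h => Nat.pow_le_pow_right hXp h
  have hc : ∀ n k : ℕ, n + 1 ≤ k → 100 * X ^ n ≤ X ^ k := fun n k hnk => by
    refine le_trans ?_ (pw (n + 1) k hnk)
    rw [pow_succ, Nat.mul_comm (X ^ n)]
    exact Nat.mul_le_mul_right _ hX100
  have hap : 0 < a := lt_of_lt_of_le (pow_pos hXp _) hXa
  have hXle : X ≤ X ^ 5 := by simpa using pw 1 5 (by norm_num)
  have hXle2 : X ≤ X ^ 2 := by simpa using pw 1 2 (by norm_num)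
  have hX1 : 100 ≤ X ^ 1 := by simpa using hX100
  have ha100 : 100 ≤ a := (hX1.trans (pw 1 100 (by norm_num))).trans hXa
  -- the size of `f₀`
  have hf100 : 100 * f ≤ a := by
    have h1 : 900 ≤ X ^ 6 := by
      have h3 := hc 1 6 (by norm_num)
      omega
    have h2 : 900 * f ≤ X ^ 6 * f := Nat.mul_le_mul_right _ h1
    omega
  have hmf5 : X ^ 5 * (m * f) ≤ 9 * a := by
    calc X ^ 5 * (m * f) ≤ X ^ 5 * (X * f) :=
          Nat.mul_le_mul_left _ (Nat.mul_le_mul_right _ hmX)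
      _ = X ^ 6 * f := by ring
      _ ≤ 9 * a := hf2
  have hff : X ^ 12 ≤ f := (pw 12 13 (by norm_num)).trans hf3
  obtain ⟨S, hS⟩ : ∃ S, S = ∑ r : Fin m, ff m f (X ^ 12) r := ⟨_, rfl⟩
  have hS1 : S ≤ m * f := by
    rw [hS]
    exact ff_le _ _ _ hff
  have hS5 : X ^ 5 * S ≤ 9 * a := (Nat.mul_le_mul_left _ hS1).trans hmf5
  have hSb : S ≤ b := by
    have h1 : 9 ≤ X ^ 5 := by omega
    have h2 : 9 * S ≤ X ^ 5 * S := Nat.mul_le_mul_right _ h1
    omega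
  obtain ⟨u, hu⟩ : ∃ u, u + S = b := ⟨b - S, by omega⟩
  have hub : u ≤ b := by omega
  have huX : u ≤ X * a := hub.trans hbX
  have hu2 : (1 + δ / 2) * a + 2 ≤ (u : ℝ) := by
    have h1 : (u : ℝ) + S = b := by exact_mod_cast hu
    have h2 : (X : ℝ) * S ≤ 9 * a := by
      have h3 : X * S ≤ 9 * a := (Nat.mul_le_mul_right _ hXle).trans hS5
      exact_mod_cast h3
    have h4 : (0 : ℝ) ≤ S := Nat.cast_nonneg _
    have h5 : (0 : ℝ) ≤ a := Nat.cast_nonneg _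
    have h6 : 100 * (S : ℝ) ≤ 9 * (δ * a) := by
      calc 100 * (S : ℝ) ≤ (δ * X) * S := mul_le_mul_of_nonneg_right hXδ h4
        _ = δ * (X * S) := by ring
        _ ≤ δ * (9 * a) := mul_le_mul_of_nonneg_left h2 hδ.le
        _ = 9 * (δ * a) := by ring
    have h7 : (X : ℝ) ≤ a := by
      have h8 : X ≤ a := by
        have : X ≤ X ^ 100 := by simpa using pw 1 100 (by norm_num)
        exact this.trans hXa
      exact_mod_cast h8
    have h8 : 100 ≤ δ * a := hXδ.trans (mul_le_mul_of_nonneg_left h7 hδ.le)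
    linarith
  have hu1 : 1 ≤ u := by
    have h1 : (0 : ℝ) < u := by
      have h5 : (0 : ℝ) ≤ a := Nat.cast_nonneg _
      have : 0 ≤ (1 + δ / 2) * a := by positivity
      linarith
    exact_mod_cast h1
  -- `R₂`
  have hA1 : 100 * (X ^ 12 * a) ≤ f * a := by
    calc 100 * (X ^ 12 * a) = (100 * X ^ 12) * a := by ring
      _ ≤ X ^ 13 * a := Nat.mul_le_mul_right _ (hc 12 13 (by norm_num))
      _ ≤ f * a := Nat.mul_le_mul_right _ hf3
  have hA2 : 100 * (f ^ 2) ≤ f * a := by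
    calc 100 * f ^ 2 = f * (100 * f) := by ring
      _ ≤ f * a := Nat.mul_le_mul_left _ hf100
  have hA3 : u * (D + X ^ 8 + (D + 1) + 2 * (X ^ 8 + 2)) ≤ F := by
    rw [hF]
    exact Nat.mul_le_mul_right _ hub
  have hA4 : u * D + u * X ^ 8 + u * ((D + 1) + (X ^ 8 + 2)) ≤ F := by
    refine le_trans ?_ hA3
    calc u * D + u * X ^ 8 + u * ((D + 1) + (X ^ 8 + 2))
        = u * (D + X ^ 8 + (D + 1) + (X ^ 8 + 2)) := by ring
      _ ≤ u * (D + X ^ 8 + (D + 1) + 2 * (X ^ 8 + 2)) := Nat.mul_le_mul_left _ (by omega)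
  have hR2 : u * D + (u * X ^ 8 + X ^ 12 * a) ≤ f * a + F := by omega
  obtain ⟨R2, hR2'⟩ := Nat.exists_eq_add_of_le hR2
  have huT : u * (X ^ 8 + 2) ≤ X ^ 10 * a := by
    calc u * (X ^ 8 + 2) ≤ (X * a) * (2 * X ^ 8) := by
          refine Nat.mul_le_mul huX ?_
          have h3 := hc 1 8 (by norm_num)
          omega
      _ = (2 * X ^ 9) * a := by ring
      _ ≤ X ^ 10 * a := Nat.mul_le_mul_right _ (by have h3 := hc 9 10 (by norm_num); omega)
  have hf12 : f * X ^ 12 ≤ X ^ 10 * a := by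
    calc f * X ^ 12 = (X ^ 6 * f) * X ^ 6 := by ring
      _ ≤ (9 * a) * X ^ 6 := Nat.mul_le_mul_right _ hf2
      _ = (9 * X ^ 6) * a := by ring
      _ ≤ X ^ 10 * a := by
          refine Nat.mul_le_mul_right _ ?_
          have h3 := hc 6 10 (by norm_num)
          omega
  have hm24 : m * (X ^ 12) ^ 2 ≤ X ^ 10 * a := by
    calc m * (X ^ 12) ^ 2 ≤ X * (X ^ 12) ^ 2 := Nat.mul_le_mul_right _ hmX
      _ = X ^ 25 := by ring
      _ ≤ X ^ 100 := pw 25 100 (by norm_num)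
      _ ≤ a := hXa
      _ ≤ X ^ 10 * a := Nat.le_mul_of_pos_left _ (pow_pos hXp _)
  have hmF : m * (u * X ^ 8) ≤ X ^ 10 * a := by
    calc m * (u * X ^ 8) ≤ X * ((X * a) * X ^ 8) :=
          Nat.mul_le_mul hmX (Nat.mul_le_mul_right _ huX)
      _ = X ^ 10 * a := by ring
  have ham : a * m ^ 2 ≤ X ^ 10 * a := by
    calc a * m ^ 2 ≤ a * X ^ 2 := Nat.mul_le_mul_left _ (Nat.pow_le_pow_left hmX 2)
      _ = X ^ 2 * a := by ring
      _ ≤ X ^ 10 * a := Nat.mul_le_mul_right _ (pw 2 10 (by norm_num))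
  have h1012 : 100 * (X ^ 10 * a) ≤ X ^ 12 * a := by
    calc 100 * (X ^ 10 * a) = (100 * X ^ 10) * a := by ring
      _ ≤ X ^ 11 * a := Nat.mul_le_mul_right _ (hc 10 11 (by norm_num))
      _ ≤ X ^ 12 * a := Nat.mul_le_mul_right _ (pw 11 12 (by norm_num))
  have hm12 : m * X ^ 12 ≤ X ^ 13 := by
    calc m * X ^ 12 ≤ X * X ^ 12 := Nat.mul_le_mul_right _ hmX
      _ = X ^ 13 := by ring
  have h13a : 100 * X ^ 13 ≤ a := (hc 13 100 (by norm_num)).trans hXa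
  have h812 : 100 * X ^ 8 ≤ X ^ 12 := hc 8 12 (by norm_num)
  have h1012' : 100 * X ^ 10 ≤ X ^ 12 := hc 10 12 (by norm_num)
  have hX8 : X ^ 2 ≤ X ^ 8 := pw 2 8 (by norm_num)
  have hX10 : X ^ 8 ≤ X ^ 10 := pw 8 10 (by norm_num)
  have h1213 : 100 * X ^ 12 ≤ X ^ 13 := hc 12 13 (by norm_num)
  refine ⟨u, D, X ^ 8, R2, X ^ 12 * a, f, X ^ 12, F, u * X ^ 8, X ^ 8 + 2, D + 1,
    ⟨hm3, hu1, by omega, ?_, ?_, ?_, hA3, le_rfl, ?_, ?_, ?_, ?_, ?_, ?_, ?_, ?_⟩, ?_, hu2, ?_, ?_⟩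
  · -- `u ≤ (D₁ + 1) (D₂ + 1)`
    have h1 : (D + 1) * X ^ 8 ≤ (D + 1) * (X ^ 8 + 1) := Nat.mul_le_mul_left _ (by omega)
    omega
  · omega
  · ring
  · omega
  · omega
  · -- `4 (u T) ≤ (f₂ - m) a`
    calc 4 * (u * (X ^ 8 + 2)) ≤ 4 * (X ^ 10 * a) := Nat.mul_le_mul_left _ huT
      _ = (4 * X ^ 10) * a := by ring
      _ ≤ (X ^ 12 - m) * a := Nat.mul_le_mul_right _ (by omega)
  · omega
  · have h1 : u / (D + 1) < X ^ 8 := by
      rw [Nat.div_lt_iff_lt_mul (by omega), Nat.mul_comm]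
      exact lt_of_le_of_lt hub hD2
    omega
  · omega
  · omega
  · omega
  · rw [← hS]
    exact hu
  · -- `2 X N ≤ a ^ 2`
    have h1 : u * D + R2 + (u * X ^ 8 + X ^ 12 * a) = f * a + F := by omega
    rw [h1]
    have h2 : 4 * (X * f) ≤ a := by
      have h3 : 36 ≤ X ^ 5 := by omega
      have h4 : 36 * (X * f) ≤ X ^ 5 * (X * f) := Nat.mul_le_mul_right _ h3
      have h5 : X ^ 5 * (X * f) = X ^ 6 * f := by ring
      omega
    calc 2 * X * (f * a + F) ≤ 2 * X * (f * a + f * a) := Nat.mul_le_mul_left _ (by omega)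
      _ = (4 * (X * f)) * a := by ring
      _ ≤ a * a := Nat.mul_le_mul_right _ h2
      _ = a ^ 2 := by ring
  · have h1 : u * X ^ 8 ≤ X ^ 10 * a := by
      calc u * X ^ 8 ≤ u * (X ^ 8 + 2) := Nat.mul_le_mul_left _ (by omega)
        _ ≤ X ^ 10 * a := huT
    have h2 : 100 * (X ^ 12 * a) ≤ X ^ 14 * a := by
      calc 100 * (X ^ 12 * a) = (100 * X ^ 12) * a := by ring
        _ ≤ X ^ 13 * a := Nat.mul_le_mul_right _ (hc 12 13 (by norm_num))
        _ ≤ X ^ 14 * a := Nat.mul_le_mul_right _ (pw 13 14 (by norm_num))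
    omega

end Vale.Agent.P181.RH.H283
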