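import Vale.Agent.P181.RH.UDefs
import Vale.Agent.P181.RH.H283.Par

set_option autoImplicit false

/-!
# P181, RHU, [PARU]: the parameters (pure arithmetic), uniform in `δ`
-/

namespace Vale.Agent.P181.RH.H283

open Finset

/-- **[PARU]** -/
theorem parU : ParRHU := by
  intro δ a b X m hδ hδ1 hX100 hXδ' hXa hb hbX hm3 hmX
  have hXδ : 100 ≤ δ * X := by
    rw [div_le_iff₀ hδ] at hXδ'
    linarith
  have hab : a ≤ b := by
    have h1 : (a : ℝ) ≤ b := by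
      have h2 : (0 : ℝ) ≤ a := Nat.cast_nonneg _
      nlinarith
    exact_mod_cast h1
  obtain ⟨D, f, F, hD1, hD2, hF, hf1, hf2, hf3⟩ := par_nat a b X hX100 hXa hab hbX
  have hXp : 0 < X := by omega
  have pw : ∀ i j : ℕ, i ≤ j → X ^ i ≤ X ^ j := fun i j h => Nat.pow_le_pow_right hXp h
  have hc : ∀ n k : ℕ, n + 1 ≤ k → 100 * X ^ n ≤ X ^ k := fun n k hnk => by
    refine le_trans ?_ (pw (n + 1) k hnk)
    rw [pow_succ, Nat.mul_comm (X ^ n)]
    exact Nat.mul_le_mul_right _ hX100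
  have hap : 0 < a := lt_of_lt_of_le (pow_pos hXp _) hXa
  have hXle : X ≤ X ^ 5 := by simpa using pw 1 5 (by norm_num)
  have hXle2 : X ≤ X ^ 2 := by simpa using pw 1 2 (by norm_num)
  have hX1 : 100 ≤ X ^ 1 := by simpa using hX100
  have ha100 : 100 ≤ a := (hX1.trans (pw 1 100 (by norm_num))).trans hXa
  -- the size of `f₀`
  have hf100 : 100 * f ≤ a := by
    have h1 : 900 ≤ X ^ 6 := by
      have h3 := hc 1 6 (by norm_num)
      omega
    have h2 : 900 * f ≤ X ^ 6 * f := Nat.mul_le_mul_right _ h1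
    omega
  have hmf5 : X ^ 5 * (m * f) ≤ 9 * a := by
    calc X ^ 5 * (m * f) ≤ X ^ 5 * (X * f) :=
          Nat.mul_le_mul_left _ (Nat.mul_le_mul_right _ hmX)
      _ = X ^ 6 * f := by ring
      _ ≤ 9 * a := hf2
  have hff : X ^ 12 ≤ f := (pw 12 13 (by norm_num)).trans hf3
  obtain ⟨S, hS⟩ : ∃ S, S = ∑ r : Fin m, ff m f (X ^ 12) r := ⟨_, rfl⟩
  have hS1 : S ≤ m * f := by
    rw [hS]
    exact ff_le _ _ _ hff
  have hS5 : X ^ 5 * S ≤ 9 * a := (Nat.mul_le_mul_left _ hS1).trans hmf5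
  have hSb : S ≤ b := by
    have h1 : 9 ≤ X ^ 5 := by omega
    have h2 : 9 * S ≤ X ^ 5 * S := Nat.mul_le_mul_right _ h1
    omega
  obtain ⟨u, hu⟩ : ∃ u, u + S = b := ⟨b - S, by omega⟩
  have hub : u ≤ b := by omega
  have huX : u ≤ X * a := hub.trans hbX
  have hu2 : (1 + δ / 2) * a + 2 ≤ (u : ℝ) := by
    have h1 : (u : ℝ) + S = b := by exact_mod_cast hu
    have h2 : (X : ℝ) * S ≤ 9 * a := by
      have h3 : X * S ≤ 9 * a := (Nat.mul_le_mul_right _ hXle).trans hS5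
      exact_mod_cast h3
    have h4 : (0 : ℝ) ≤ S := Nat.cast_nonneg _
    have h5 : (0 : ℝ) ≤ a := Nat.cast_nonneg _
    have h6 : 100 * (S : ℝ) ≤ 9 * (δ * a) := by
      calc 100 * (S : ℝ) ≤ (δ * X) * S := mul_le_mul_of_nonneg_right hXδ h4
        _ = δ * (X * S) := by ring
        _ ≤ δ * (9 * a) := mul_le_mul_of_nonneg_left h2 hδ.le
        _ = 9 * (δ * a) := by ring
    have h7 : (X : ℝ) ≤ a := by
      have h8 : X ≤ a := by
        have : X ≤ X ^ 100 := by simpa using pw 1 100 (by norm_num)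
        exact this.trans hXa
      exact_mod_cast h8
    have h8 : 100 ≤ δ * a := hXδ.trans (mul_le_mul_of_nonneg_left h7 hδ.le)
    linarith
  have hu1 : 1 ≤ u := by
    have h1 : (0 : ℝ) < u := by
      have h5 : (0 : ℝ) ≤ a := Nat.cast_nonneg _
      have : 0 ≤ (1 + δ / 2) * a := by positivity
      linarith
    exact_mod_cast h1
  -- `R₂`
  have hA1 : 100 * (X ^ 12 * a) ≤ f * a := by
    calc 100 * (X ^ 12 * a) = (100 * X ^ 12) * a := by ring
      _ ≤ X ^ 13 * a := Nat.mul_le_mul_right _ (hc 12 13 (by norm_num))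
      _ ≤ f * a := Nat.mul_le_mul_right _ hf3
  have hA2 : 100 * (f ^ 2) ≤ f * a := by
    calc 100 * f ^ 2 = f * (100 * f) := by ring
      _ ≤ f * a := Nat.mul_le_mul_left _ hf100
  have hA3 : u * (D + X ^ 8 + (D + 1) + 2 * (X ^ 8 + 2)) ≤ F := by
    rw [hF]
    exact Nat.mul_le_mul_right _ hub
  have hA4 : u * D + u * X ^ 8 + u * ((D + 1) + (X ^ 8 + 2)) ≤ F := by
    refine le_trans ?_ hA3
    calc u * D + u * X ^ 8 + u * ((D + 1) + (X ^ 8 + 2))
        = u * (D + X ^ 8 + (D + 1) + (X ^ 8 + 2)) := by ring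
      _ ≤ u * (D + X ^ 8 + (D + 1) + 2 * (X ^ 8 + 2)) := Nat.mul_le_mul_left _ (by omega)
  have hR2 : u * D + (u * X ^ 8 + X ^ 12 * a) ≤ f * a + F := by omega
  obtain ⟨R2, hR2'⟩ := Nat.exists_eq_add_of_le hR2
  have huT : u * (X ^ 8 + 2) ≤ X ^ 10 * a := by
    calc u * (X ^ 8 + 2) ≤ (X * a) * (2 * X ^ 8) := by
          refine Nat.mul_le_mul huX ?_
          have h3 := hc 1 8 (by norm_num)
          omega
      _ = (2 * X ^ 9) * a := by ring
      _ ≤ X ^ 10 * a := Nat.mul_le_mul_right _ (by have h3 := hc 9 10 (by norm_num); omega)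
  have hf12 : f * X ^ 12 ≤ X ^ 10 * a := by
    calc f * X ^ 12 = (X ^ 6 * f) * X ^ 6 := by ring
      _ ≤ (9 * a) * X ^ 6 := Nat.mul_le_mul_right _ hf2
      _ = (9 * X ^ 6) * a := by ring
      _ ≤ X ^ 10 * a := by
          refine Nat.mul_le_mul_right _ ?_
          have h3 := hc 6 10 (by norm_num)
          omega
  have hm24 : m * (X ^ 12) ^ 2 ≤ X ^ 10 * a := by
    calc m * (X ^ 12) ^ 2 ≤ X * (X ^ 12) ^ 2 := Nat.mul_le_mul_right _ hmX
      _ = X ^ 25 := by ring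
      _ ≤ X ^ 100 := pw 25 100 (by norm_num)
      _ ≤ a := hXa
      _ ≤ X ^ 10 * a := Nat.le_mul_of_pos_left _ (pow_pos hXp _)
  have hmF : m * (u * X ^ 8) ≤ X ^ 10 * a := by
    calc m * (u * X ^ 8) ≤ X * ((X * a) * X ^ 8) :=
          Nat.mul_le_mul hmX (Nat.mul_le_mul_right _ huX)
      _ = X ^ 10 * a := by ring
  have ham : a * m ^ 2 ≤ X ^ 10 * a := by
    calc a * m ^ 2 ≤ a * X ^ 2 := Nat.mul_le_mul_left _ (Nat.pow_le_pow_left hmX 2)
      _ = X ^ 2 * a := by ring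
      _ ≤ X ^ 10 * a := Nat.mul_le_mul_right _ (pw 2 10 (by norm_num))
  have h1012 : 100 * (X ^ 10 * a) ≤ X ^ 12 * a := by
    calc 100 * (X ^ 10 * a) = (100 * X ^ 10) * a := by ring
      _ ≤ X ^ 11 * a := Nat.mul_le_mul_right _ (hc 10 11 (by norm_num))
      _ ≤ X ^ 12 * a := Nat.mul_le_mul_right _ (pw 11 12 (by norm_num))
  have hm12 : m * X ^ 12 ≤ X ^ 13 := by
    calc m * X ^ 12 ≤ X * X ^ 12 := Nat.mul_le_mul_right _ hmX
      _ = X ^ 13 := by ring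
  have h13a : 100 * X ^ 13 ≤ a := (hc 13 100 (by norm_num)).trans hXa
  have h812 : 100 * X ^ 8 ≤ X ^ 12 := hc 8 12 (by norm_num)
  have h1012' : 100 * X ^ 10 ≤ X ^ 12 := hc 10 12 (by norm_num)
  have hX8 : X ^ 2 ≤ X ^ 8 := pw 2 8 (by norm_num)
  have hX10 : X ^ 8 ≤ X ^ 10 := pw 8 10 (by norm_num)
  have h1213 : 100 * X ^ 12 ≤ X ^ 13 := hc 12 13 (by norm_num)
  refine ⟨u, D, X ^ 8, R2, X ^ 12 * a, f, X ^ 12, F, u * X ^ 8, X ^ 8 + 2, D + 1,
    ⟨hm3, hu1, by omega, ?_, ?_, ?_, hA3, le_rfl, ?_, ?_, ?_, ?_, ?_, ?_, ?_, ?_⟩, ?_, hu2, ?_, ?_⟩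
  · -- `u ≤ (D₁ + 1) (D₂ + 1)`
    have h1 : (D + 1) * X ^ 8 ≤ (D + 1) * (X ^ 8 + 1) := Nat.mul_le_mul_left _ (by omega)
    omega
  · omega
  · ring
  · omega
  · omega
  · -- `4 (u T) ≤ (f₂ - m) a`
    calc 4 * (u * (X ^ 8 + 2)) ≤ 4 * (X ^ 10 * a) := Nat.mul_le_mul_left _ huT
      _ = (4 * X ^ 10) * a := by ring
      _ ≤ (X ^ 12 - m) * a := Nat.mul_le_mul_right _ (by omega)
  · omega
  · have h1 : u / (D + 1) < X ^ 8 := by
      rw [Nat.div_lt_iff_lt_mul (by omega), Nat.mul_comm]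
      exact lt_of_le_of_lt hub hD2
    omega
  · omega
  · omega
  · omega
  · rw [← hS]
    exact hu
  · -- `2 X N ≤ a ^ 2`
    have h1 : u * D + R2 + (u * X ^ 8 + X ^ 12 * a) = f * a + F := by omega
    rw [h1]
    have h2 : 4 * (X * f) ≤ a := by
      have h3 : 36 ≤ X ^ 5 := by omega
      have h4 : 36 * (X * f) ≤ X ^ 5 * (X * f) := Nat.mul_le_mul_right _ h3
      have h5 : X ^ 5 * (X * f) = X ^ 6 * f := by ring
      omega
    calc 2 * X * (f * a + F) ≤ 2 * X * (f * a + f * a) := Nat.mul_le_mul_left _ (by omega)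
      _ = (4 * (X * f)) * a := by ring
      _ ≤ a * a := Nat.mul_le_mul_right _ h2
      _ = a ^ 2 := by ring
  · have h1 : u * X ^ 8 ≤ X ^ 10 * a := by
      calc u * X ^ 8 ≤ u * (X ^ 8 + 2) := Nat.mul_le_mul_left _ (by omega)
        _ ≤ X ^ 10 * a := huT
    have h2 : 100 * (X ^ 12 * a) ≤ X ^ 14 * a := by
      calc 100 * (X ^ 12 * a) = (100 * X ^ 12) * a := by ring
        _ ≤ X ^ 13 * a := Nat.mul_le_mul_right _ (hc 12 13 (by norm_num))
        _ ≤ X ^ 14 * a := Nat.mul_le_mul_right _ (pw 13 14 (by norm_num))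
    omega

end Vale.Agent.P181.RH.H283
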